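import Vale.Agent.P108.MathlibUsed

/-! Shared definitions for the standard map. -/

open MeasureTheory Filter Set

namespace Vale.Agent.P108

/-- The lift to the plane of the standard map with parameter `k`. -/
noncomputable def F (k : ℝ) (z : ℝ × ℝ) : ℝ × ℝ :=
  (z.1 + z.2 + k * Real.sin (2 * Real.pi * z.1), z.2 + k * Real.sin (2 * Real.pi * z.1))

/-- The unit square, a fundamental domain for the torus. -/
def Q : Set (ℝ × ℝ) := Ico (0 : ℝ) 1 ×ˢ Ico (0 : ℝ) 1

/-- The upper Lyapunov exponent of the standard map at `z`. -/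
noncomputable def lyap (k : ℝ) (z : ℝ × ℝ) : ℝ :=
  limsup (fun n : ℕ => Real.log ‖fderiv ℝ (F k)^[n] z‖ / n) atTop

/-- The integral of the upper exponent, which is the metric entropy by Pesin's formula. -/
noncomputable def ent (k : ℝ) : ℝ := ∫ z in Q, lyap k z

end Vale.Agent.P108
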