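import Mathlib.Algebra.Order.Ring.Star
import Mathlib.Algebra.Order.Star.Real
import Mathlib.Analysis.CStarAlgebra.Classes
import Mathlib.Analysis.Complex.ExponentialBounds
import Mathlib.Analysis.Real.Pi.Bounds
import Mathlib.Analysis.SpecialFunctions.Arsinh
import Mathlib.Analysis.SpecialFunctions.Integrals.PosLogEqCircleAverage
import Mathlib.Analysis.Subadditive
import Mathlib.Dynamics.BirkhoffSum.Basic
import Mathlib.Geometry.Manifold.Algebra.Monoid
import Mathlib.MeasureTheory.Function.Floor
import Mathlib.MeasureTheory.Integral.Indicator
import Mathlib.MeasureTheory.Measure.RegularityCompacts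
import Mathlib.MeasureTheory.Order.Group.Lattice
import Mathlib.Order.CompletePartialOrder
import Mathlib.Tactic
import Mathlib.Topology.UniformSpace.Uniformizable

/-! The part of Mathlib that the development of this folder uses. -/
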